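import Vale.Agent.P040.Sph96.States

/-!
# The labelling lemma (helper96)

Every `2k+1` vectors of three-space in general position admit a labelling in the sense of `Sph56.Lab`.
Some halving state is joined to its antipode: otherwise colour the classes of states so that antipodal
classes get different colours and count the coloured arcs modulo two, once vertex by vertex (the sum
vanishes) and once line by line in the chart of a generic vector `z` (the sum telescopes to the number of
halving circles through `z`, which is odd).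
-/

namespace Vale.Agent.P040.Sph96

open Finset Vale.Agent.P040.Sph56 Vale.Agent.P040.Wind30

variable {k : ℕ} {v : Fin (2 * k + 1) → V3}

/-- the positive set of the arc of the chart line `u` that lies above the keys in `D` -/
noncomputable def PD (v : Fin (2 * k + 1) → V3) (z : V3) (u : Fin (2 * k + 1))
    (D : Finset (Fin (2 * k + 1))) : Finset (Fin (2 * k + 1)) :=
  univ.filter fun x => x ≠ u ∧
    ((0 < det3 (v u) z (v x) ∧ x ∈ D) ∨ (det3 (v u) z (v x) < 0 ∧ x ∉ D))

lemma mem_PD {z : V3} {u x : Fin (2 * k + 1)} {D : Finset (Fin (2 * k + 1))} :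
    x ∈ PD v z u D ↔ x ≠ u ∧
      ((0 < det3 (v u) z (v x) ∧ x ∈ D) ∨ (det3 (v u) z (v x) < 0 ∧ x ∉ D)) := by
  simp only [PD, mem_filter, mem_univ, true_and]

lemma tk_ne {z : V3} (G : Gen v z) {u x w : Fin (2 * k + 1)} (hxu : x ≠ u) (hwu : w ≠ u)
    (hxw : x ≠ w) : tk (v u) z (v x) ≠ tk (v u) z (v w) := by
  intro h
  have hx := G.gz u x hxu.symm
  have hw := G.gz u w hwu.symm
  have hd := G.gp u x w hxu.symm hwu.symm hxw
  have h1 := tk_lt_iff (v u) z (v x) (v w) hx hw
  have h2 := tk_lt_iff (v u) z (v w) (v x) hw hx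
  rw [h] at h1 h2
  have h3 : ¬ 0 < det3 (v u) (v x) (v w) * det3 (v u) z (v w) * det3 (v u) z (v x) :=
    fun h' => lt_irrefl _ (h1.mpr h')
  have h4 : ¬ 0 < det3 (v u) (v w) (v x) * det3 (v u) z (v x) * det3 (v u) z (v w) :=
    fun h' => lt_irrefl _ (h2.mpr h')
  rw [det3_swap23 (v u) (v x) (v w)] at h4
  have h5 : det3 (v u) (v x) (v w) * det3 (v u) z (v w) * det3 (v u) z (v x) ≠ 0 :=
    mul_ne_zero (mul_ne_zero hd hw) hx
  rcases lt_or_gt_of_ne h5 with h6 | h6
  · apply h4
    nlinarith
  · exact h3 h6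

/-- off `u`, `w` the arcs next to the vertex have the positive set of the vertex -/
lemma side_lt {z : V3} (G : Gen v z) {u x w : Fin (2 * k + 1)} (hxu : x ≠ u) (hwu : w ≠ u)
    (hxw : x ≠ w) :
    ((0 < det3 (v u) z (v x) ∧ tk (v u) z (v x) < tk (v u) z (v w)) ∨
      (det3 (v u) z (v x) < 0 ∧ ¬ tk (v u) z (v x) < tk (v u) z (v w))) ↔ x ∈ QQ v z u w := by
  have hx := G.gz u x hxu.symm
  have hw := G.gz u w hwu.symm
  have hd := G.gp u x w hxu.symm hwu.symm hxw
  rw [tk_lt_iff (v u) z (v x) (v w) hx hw, mem_QQ]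
  have hE : det3 (v u) (v x) (v w) * det3 (v u) z (v w) ≠ 0 := mul_ne_zero hd hw
  have hs := side_iff (det3 (v u) z (v x)) (det3 (v u) (v x) (v w) * det3 (v u) z (v w)) hx
  have e : det3 (v u) (v w) (v x) * det3 (v u) (v w) z
      = det3 (v u) (v x) (v w) * det3 (v u) z (v w) := by
    rw [det3_swap23 (v u) (v x) (v w), det3_swap23 (v u) z (v w), neg_mul_neg]
  rw [e, ← hs]
  constructor
  · rintro (h | ⟨h1, h2⟩)
    · exact ⟨hxu, hxw, Or.inl h⟩
    · exact ⟨hxu, hxw, Or.inr ⟨h1, h2, hE⟩⟩
  · rintro ⟨_, _, h | ⟨h1, h2, _⟩⟩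
    · exact Or.inl h
    · exact Or.inr ⟨h1, h2⟩

lemma PD_lt {z : V3} (G : Gen v z) {u w : Fin (2 * k + 1)} (hwu : w ≠ u) :
    PD v z u ((univ.erase u).filter fun x => tk (v u) z (v x) < tk (v u) z (v w))
      = if det3 (v u) z (v w) < 0 then insert w (QQ v z u w) else QQ v z u w := by
  have hw := G.gz u w hwu.symm
  have key : ∀ x, x ∈ PD v z u ((univ.erase u).filter fun x => tk (v u) z (v x) < tk (v u) z (v w))
      ↔ (x = w ∧ det3 (v u) z (v w) < 0) ∨ x ∈ QQ v z u w := by
    intro x
    rw [mem_PD]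
    simp only [mem_filter, mem_erase, mem_univ, and_true]
    by_cases hxu : x = u
    · subst hxu
      constructor
      · rintro ⟨h, _⟩
        exact absurd rfl h
      · rintro (⟨h, _⟩ | h)
        · exact absurd h.symm hwu
        · exact absurd h (notMem_QQ_left z x w)
    · by_cases hxw : x = w
      · subst hxw
        constructor
        · rintro ⟨_, ⟨_, _, h⟩ | ⟨h, _⟩⟩
          · exact absurd h (lt_irrefl _)
          · exact Or.inl ⟨rfl, h⟩
        · rintro (⟨_, h⟩ | h)
          · exact ⟨hxu, Or.inr ⟨h, fun h' => lt_irrefl _ h'.2⟩⟩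
          · exact absurd h (notMem_QQ_right z u x)
      · rw [← side_lt G hxu hwu hxw]
        constructor
        · rintro ⟨_, ⟨h1, _, h2⟩ | ⟨h1, h2⟩⟩
          · exact Or.inr (Or.inl ⟨h1, h2⟩)
          · exact Or.inr (Or.inr ⟨h1, fun h' => h2 ⟨hxu, h'⟩⟩)
        · rintro (⟨h, _⟩ | ⟨h1, h2⟩ | ⟨h1, h2⟩)
          · exact absurd h hxw
          · exact ⟨hxu, Or.inl ⟨h1, hxu, h2⟩⟩
          · exact ⟨hxu, Or.inr ⟨h1, fun h' => h2 h'.2⟩⟩
  ext x
  rw [key]
  split_ifs with hs
  · rw [mem_insert]
    constructor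
    · rintro (⟨h, _⟩ | h)
      · exact Or.inl h
      · exact Or.inr h
    · rintro (h | h)
      · exact Or.inl ⟨h, hs⟩
      · exact Or.inr h
  · constructor
    · rintro (⟨_, h⟩ | h)
      · exact absurd h hs
      · exact h
    · intro h
      exact Or.inr h

lemma PD_le {z : V3} (G : Gen v z) {u w : Fin (2 * k + 1)} (hwu : w ≠ u) :
    PD v z u ((univ.erase u).filter fun x => tk (v u) z (v x) ≤ tk (v u) z (v w))
      = if det3 (v u) z (v w) < 0 then QQ v z u w else insert w (QQ v z u w) := by
  have hw := G.gz u w hwu.symm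
  have key : ∀ x, x ∈ PD v z u ((univ.erase u).filter fun x => tk (v u) z (v x) ≤ tk (v u) z (v w))
      ↔ (x = w ∧ 0 < det3 (v u) z (v w)) ∨ x ∈ QQ v z u w := by
    intro x
    rw [mem_PD]
    simp only [mem_filter, mem_erase, mem_univ, and_true]
    by_cases hxu : x = u
    · subst hxu
      constructor
      · rintro ⟨h, _⟩
        exact absurd rfl h
      · rintro (⟨h, _⟩ | h)
        · exact absurd h.symm hwu
        · exact absurd h (notMem_QQ_left z x w)
    · by_cases hxw : x = w
      · subst hxw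
        constructor
        · rintro ⟨_, ⟨h, _⟩ | ⟨_, h⟩⟩
          · exact Or.inl ⟨rfl, h⟩
          · exact absurd ⟨hxu, le_refl _⟩ h
        · rintro (⟨_, h⟩ | h)
          · exact ⟨hxu, Or.inl ⟨h, hxu, le_refl _⟩⟩
          · exact absurd h (notMem_QQ_right z u x)
      · have hne := tk_ne G hxu hwu hxw
        have hle : tk (v u) z (v x) ≤ tk (v u) z (v w) ↔ tk (v u) z (v x) < tk (v u) z (v w) :=
          ⟨fun h => lt_of_le_of_ne h hne, le_of_lt⟩
        rw [← side_lt G hxu hwu hxw, hle]
        constructor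
        · rintro ⟨_, ⟨h1, _, h2⟩ | ⟨h1, h2⟩⟩
          · exact Or.inr (Or.inl ⟨h1, h2⟩)
          · exact Or.inr (Or.inr ⟨h1, fun h' => h2 ⟨hxu, h'⟩⟩)
        · rintro (⟨h, _⟩ | ⟨h1, h2⟩ | ⟨h1, h2⟩)
          · exact absurd h hxw
          · exact ⟨hxu, Or.inl ⟨h1, hxu, h2⟩⟩
          · exact ⟨hxu, Or.inr ⟨h1, fun h' => h2 h'.2⟩⟩
  ext x
  rw [key]
  split_ifs with hs
  · constructor
    · rintro (⟨_, h⟩ | h)
      · exact absurd h (not_lt.mpr hs.le)
      · exact h
    · intro h
      exact Or.inr h
  · have hs' : 0 < det3 (v u) z (v w) := lt_of_le_of_ne (not_lt.mp hs) hw.symm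
    rw [mem_insert]
    constructor
    · rintro (⟨h, _⟩ | h)
      · exact Or.inl h
      · exact Or.inr h
    · rintro (h | h)
      · exact Or.inl ⟨h, hs'⟩
      · exact Or.inr h

/-- the sum of the vertex contributions along the line `u` telescopes -/
lemma line_sum {z : V3} (G : Gen v z) (h : St k v → Prop) (u : Fin (2 * k + 1)) :
    ∑ w ∈ univ.erase u, GG h z u w
      = Phi h u (PD v z u (univ.erase u)) + Phi h u (PD v z u ∅) := by
  have hinj : Set.InjOn (fun x => tk (v u) z (v x)) (univ.erase u : Finset (Fin (2 * k + 1))) := by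
    intro x hx w hw hxw
    by_contra hne
    exact tk_ne G (ne_of_mem_erase (mem_coe.mp hx)) (ne_of_mem_erase (mem_coe.mp hw)) hne hxw
  rw [← telescope (fun x => tk (v u) z (v x)) (fun D => Phi h u (PD v z u D)) (univ.erase u) hinj]
  apply sum_congr rfl
  intro w hw
  have hwu := ne_of_mem_erase hw
  rw [PD_le G hwu, PD_lt G hwu]
  unfold GG
  split_ifs with hs
  · rfl
  · exact add_comm _ _

/-- the two unbounded arcs of the line `u` -/
lemma line_ends {z : V3} (G : Gen v z) {h : St k v → Prop} (hA : ∀ s t, Adj s t → (h s ↔ h t))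
    (hN : ∀ s, (h (neg s) ↔ ¬ h s)) (u : Fin (2 * k + 1)) :
    Phi h u (PD v z u (univ.erase u)) + Phi h u (PD v z u ∅)
      = if (univ.filter fun x => 0 < det3 (v u) z (v x)).card = k then 1 else 0 := by
  classical
  have m1 : ∀ q, q ∈ PD v z u (univ.erase u) ↔ 0 < det3 (v u) z (v q) := by
    intro q
    rw [mem_PD]
    simp only [mem_erase, mem_univ, and_true]
    constructor
    · rintro ⟨h1, ⟨h2, _⟩ | ⟨_, h2⟩⟩
      · exact h2
      · exact absurd h1 h2
    · intro h1
      have hq : q ≠ u := by
        rintro rfl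
        rw [det3_self13] at h1
        exact lt_irrefl _ h1
      exact ⟨hq, Or.inl ⟨h1, hq⟩⟩
  have m2 : ∀ q, q ∈ PD v z u ∅ ↔ det3 (v u) z (v q) < 0 := by
    intro q
    rw [mem_PD]
    simp only [notMem_empty, and_false, not_false_eq_true, and_true, false_or]
    constructor
    · rintro ⟨_, h2⟩
      exact h2
    · intro h1
      refine ⟨?_, h1⟩
      rintro rfl
      rw [det3_self13] at h1
      exact lt_irrefl _ h1
  have hfil : (univ.filter fun x => 0 < det3 (v u) z (v x)) = PD v z u (univ.erase u) := by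
    ext q
    simp only [mem_filter, mem_univ, true_and]
    exact (m1 q).symm
  rw [hfil]
  by_cases hc : (PD v z u (univ.erase u)).card = k
  · rw [if_pos hc]
    have hH : Halv k v (crs (v u) z) u := halv_of (P := PD v z u (univ.erase u))
      (by rw [dot_crs, det3_self13])
      (fun q hq => by rw [dot_crs]; exact G.gz u q hq.symm)
      (fun q => by rw [dot_crs]; exact m1 q) hc
    let s : St k v := ⟨(crs (v u) z, u), hH⟩
    have a1 : HH h u (PD v z u (univ.erase u)) ↔ h s :=
      HH_iff hA s (fun q => by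
        show q ∈ PD v z u (univ.erase u) ↔ 0 < dot (crs (v u) z) (v q)
        rw [dot_crs]; exact m1 q)
    have a2 : HH h u (PD v z u ∅) ↔ h (neg s) :=
      HH_iff hA (neg s) (fun q => by
        show q ∈ PD v z u ∅ ↔ 0 < dot (ng (crs (v u) z)) (v q)
        rw [dot_ng, dot_crs, Left.neg_pos_iff]; exact m2 q)
    unfold Phi
    by_cases hs : h s
    · rw [if_pos (a1.mpr hs), if_neg (fun h' => (hN s).mp (a2.mp h') hs)]
      simp
    · rw [if_neg (fun h' => hs (a1.mp h')), if_pos (a2.mpr ((hN s).mpr hs))]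
      simp
  · rw [if_neg hc]
    have b1 : ¬ HH h u (PD v z u (univ.erase u)) := by
      rintro ⟨s, _, hP, _⟩
      exact hc (card_of_state s hP)
    have b2 : ¬ HH h u (PD v z u ∅) := by
      rintro ⟨s, hsu, hP, _⟩
      apply hc
      apply card_of_state (neg s)
      intro q
      show q ∈ PD v z u (univ.erase u) ↔ 0 < dot (ng s.1.1) (v q)
      rw [dot_ng, Left.neg_pos_iff, m1]
      by_cases hq : q = u
      · subst hq
        have hp : dot s.1.1 (v q) = 0 := by
          have := s.2.perp
          rw [hsu] at this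
          exact this
        rw [det3_self13, hp]
      · have hne := s.2.ne q (by rw [hsu]; exact hq)
        have hz := G.gz u q (Ne.symm hq)
        have hq2 := hP q
        rw [m2] at hq2
        constructor
        · intro h1
          by_contra h2
          have h3 : 0 < dot s.1.1 (v q) := lt_of_le_of_ne (not_lt.mp h2) hne.symm
          exact lt_asymm h1 (hq2.mpr h3)
        · intro h1
          by_contra h2
          have h3 : det3 (v u) z (v q) < 0 := lt_of_le_of_ne (not_lt.mp h2) hz
          exact lt_asymm h1 (hq2.mp h3)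
    unfold Phi
    rw [if_neg b1, if_neg b2]
    simp

/-- a symmetric function with zero diagonal has sum zero modulo two -/
lemma sum_symm_zero {I : Type*} [Fintype I] [DecidableEq I] (F : I → I → ZMod 2)
    (hs : ∀ a b, F a b = F b a) (hd : ∀ a, F a a = 0) : ∑ a, ∑ b, F a b = 0 := by
  rw [← Finset.sum_product']
  apply Finset.sum_involution (fun p _ => (p.2, p.1))
  · intro p _
    rw [hs p.2 p.1]
    exact CharTwo.add_self_eq_zero _
  · intro p _ hp hpe
    apply hp
    have : p.2 = p.1 := congrArg Prod.fst hpe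
    rw [this]
    exact hd _
  · intro p _
    exact mem_univ _
  · intro p _
    rfl

/-- some halving state is joined to its antipode -/
theorem exists_reach {z : V3} (G : Gen v z) :
    ∃ s : St k v, Relation.ReflTransGen Adj s (neg s) := by
  classical
  by_contra hno'
  have hno : ∀ s : St k v, ¬ Relation.ReflTransGen Adj s (neg s) := fun s hs => hno' ⟨s, hs⟩
  have hE : Equivalence (Relation.ReflTransGen (Adj (k := k) (v := v))) :=
    ⟨fun _ => Relation.ReflTransGen.refl,
      fun {a b} hab => by
        induction hab with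
        | refl => exact Relation.ReflTransGen.refl
        | tail _ hbc ih => exact Relation.ReflTransGen.head (adj_symm hbc) ih,
      fun h1 h2 => h1.trans h2⟩
  obtain ⟨h, hR, hN⟩ := exists_colouring (Relation.ReflTransGen (Adj (k := k) (v := v))) hE neg
    (fun s t hst => Relation.ReflTransGen.lift neg (fun a b hab => adj_neg hab) s t hst)
    (fun s => Relation.ReflTransGen.single (adj_neg_neg s)) hno
  have hA : ∀ s t, Adj s t → (h s ↔ h t) := fun s t hst => hR s t (Relation.ReflTransGen.single hst)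
  -- vertex by vertex
  have h0 : ∑ u, ∑ w, (if u = w then (0 : ZMod 2) else GG h z u w) = 0 := by
    apply sum_symm_zero
    · intro a b
      by_cases hab : a = b
      · subst hab
        rfl
      · rw [if_neg hab, if_neg (Ne.symm hab)]
        exact GG_symm G hA hab
    · intro a
      rw [if_pos rfl]
  -- line by line
  have h1 : ∀ u, ∑ w, (if u = w then (0 : ZMod 2) else GG h z u w)
      = if (univ.filter fun x => 0 < det3 (v u) z (v x)).card = k then 1 else 0 := by
    intro u
    rw [← line_ends G hA hN u, ← line_sum G h u,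
      ← Finset.sum_erase univ (a := u) (f := fun w => if u = w then (0 : ZMod 2) else GG h z u w)
        (by simp)]
    apply sum_congr rfl
    intro w hw
    rw [if_neg (ne_of_mem_erase hw).symm]
  have h2 : Odd (univ.filter fun u : Fin (2 * k + 1) =>
      (univ.filter fun x => 0 < det3 (v u) z (v x)).card = k).card :=
    Vale.Agent.P040.Sph28.odd_halving k (by simp) (fun a b => det3 (v a) z (v b))
      (fun a b => by rw [det3_swap13])
      (fun a b hab => G.gz a b hab)
      (fun a b c d => three_term z (v a) (v b) (v c) (v d))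
  rw [Finset.sum_congr rfl (fun u _ => h1 u), Finset.sum_boole] at h0
  have h3 := (ZMod.natCast_eq_zero_iff_even).mp h0
  exact (Nat.not_even_iff_odd.mpr h2) h3

/-- a generic auxiliary vector -/
lemma exists_gen (hgen : ∀ a b c, a ≠ b → a ≠ c → b ≠ c → det3 (v a) (v b) (v c) ≠ 0) :
    ∃ z, Gen v z := by
  classical
  obtain ⟨z, hz⟩ := Vale.Agent.P040.Sph80.exists_ref
    ((univ.filter fun p : Fin (2 * k + 1) × Fin (2 * k + 1) => p.1 ≠ p.2).image
      fun p => crs (v p.2) (v p.1)) (by
    intro w hw
    obtain ⟨p, hp, rfl⟩ := mem_image.mp hw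
    have hab : p.1 ≠ p.2 := (mem_filter.mp hp).2
    have hk : 2 < 2 * k + 1 := by
      by_contra hk
      apply hab
      apply Fin.ext
      have h1 := p.1.2
      have h2 := p.2.2
      omega
    have hcard : ({p.1, p.2} : Finset (Fin (2 * k + 1))).card
        < (univ : Finset (Fin (2 * k + 1))).card := by
      rw [card_univ, Fintype.card_fin]
      exact lt_of_le_of_lt card_le_two hk
    obtain ⟨c, _, hc⟩ := exists_mem_notMem_of_card_lt_card hcard
    simp only [mem_insert, mem_singleton, not_or] at hc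
    intro h0
    have h3 := hgen p.2 p.1 c hab.symm (Ne.symm hc.2) (Ne.symm hc.1)
    rw [← dot_crs, h0] at h3
    apply h3
    unfold dot
    simp)
  refine ⟨z, hgen, ?_⟩
  intro a b hab
  have h1 := hz (crs (v b) (v a)) (mem_image.mpr ⟨(a, b), by simp [hab], rfl⟩)
  rw [dot_crs] at h1
  have e : det3 (v a) z (v b) = det3 (v b) (v a) z := by
    unfold det3
    ring
  rw [e]
  exact h1

/-- **The labelling lemma.**  Any `2k+1` vectors of three-space, any three of them linearly independent, can
be labelled so that through the `i`-th one there is a great circle having all smaller labels (`i ≤ k`),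
resp. all larger labels (`i > k`), strictly on its positive side, which contains at most `k` vectors. -/
theorem exists_lab (k : ℕ) (v : Fin (2 * k + 1) → V3)
    (hgen : ∀ a b c, a ≠ b → a ≠ c → b ≠ c → det3 (v a) (v b) (v c) ≠ 0) :
    ∃ (σ : Fin (2 * k + 1) ≃ Fin (2 * k + 1)) (nn : ℕ → V3),
      Lab k (fun i => if h : i < 2 * k + 1 then v (σ ⟨i, h⟩) else 0) nn := by
  obtain ⟨z, G⟩ := exists_gen hgen
  obtain ⟨s, hs⟩ := exists_reach G
  refine lab_of_reach (S := St k v) Adj (fun s => s.1.1) (fun s => s.1.2) (fun s => s.2)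
    (fun s t hst => hst) s (neg s) hs rfl ?_
  intro q _
  show 0 < dot (ng s.1.1) (v q) ↔ dot s.1.1 (v q) < 0
  rw [dot_ng, Left.neg_pos_iff]

end Vale.Agent.P040.Sph96
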