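import Vale.Agent.P040.Sph96.Tools

/-!
# The labelling lemma: halving states and their realisations (helper96)
-/

namespace Vale.Agent.P040.Sph96

open Finset Vale.Agent.P040.Sph56 Vale.Agent.P040.Wind30

variable {k : ℕ} {v : Fin (2 * k + 1) → V3}

/-- halving states: a normal together with its pivot -/
def St (k : ℕ) (v : Fin (2 * k + 1) → V3) : Type :=
  {s : V3 × Fin (2 * k + 1) // Halv k v s.1 s.2}

/-- two states are adjacent if all points off the two pivots are on the same sides -/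
def Adj (s t : St k v) : Prop :=
  ∀ q, q ≠ s.1.2 → q ≠ t.1.2 → (0 < dot s.1.1 (v q) ↔ 0 < dot t.1.1 (v q))

lemma halv_ng {n : V3} {p : Fin (2 * k + 1)} (h : Halv k v n p) : Halv k v (ng n) p where
  perp := by rw [dot_ng, h.perp, neg_zero]
  ne := fun q hq => by
    rw [dot_ng]
    exact neg_ne_zero.mpr (h.ne q hq)
  card := by
    have := h.card_neg
    simp only [dot_ng, Left.neg_pos_iff]
    exact this

/-- the antipodal state -/
def neg (s : St k v) : St k v := ⟨(ng s.1.1, s.1.2), halv_ng s.2⟩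

lemma adj_symm {s t : St k v} (h : Adj s t) : Adj t s := fun q h1 h2 => (h q h2 h1).symm

lemma adj_neg {s t : St k v} (h : Adj s t) : Adj (neg s) (neg t) := by
  intro q h1 h2
  have h1' : q ≠ s.1.2 := h1
  have h2' : q ≠ t.1.2 := h2
  show 0 < dot (ng s.1.1) (v q) ↔ 0 < dot (ng t.1.1) (v q)
  rw [dot_ng, dot_ng, Left.neg_pos_iff, Left.neg_pos_iff]
  have hs := s.2.ne q h1'
  have ht := t.2.ne q h2'
  have hq := h q h1' h2'
  constructor
  · intro hlt
    by_contra hc
    have h3 : 0 < dot t.1.1 (v q) := lt_of_le_of_ne (not_lt.mp hc) ht.symm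
    exact lt_asymm (hq.mpr h3) hlt
  · intro hlt
    by_contra hc
    have h3 : 0 < dot s.1.1 (v q) := lt_of_le_of_ne (not_lt.mp hc) hs.symm
    exact lt_asymm (hq.mp h3) hlt

lemma adj_neg_neg (s : St k v) : Adj (neg (neg s)) s := by
  intro q _ _
  show 0 < dot (ng (ng s.1.1)) (v q) ↔ 0 < dot s.1.1 (v q)
  rw [dot_ng, dot_ng, neg_neg]

/-- the state `(u, P)` is realised by a state of colour `h` -/
def HH (h : St k v → Prop) (u : Fin (2 * k + 1)) (P : Finset (Fin (2 * k + 1))) : Prop :=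
  ∃ s : St k v, s.1.2 = u ∧ (∀ q, q ∈ P ↔ 0 < dot s.1.1 (v q)) ∧ h s

open Classical in
/-- indicator of `HH` modulo two -/
noncomputable def Phi (h : St k v → Prop) (u : Fin (2 * k + 1)) (P : Finset (Fin (2 * k + 1))) :
    ZMod 2 := if HH h u P then 1 else 0

/-- the points on the positive side of the vertex of the circles `u^⊥`, `w^⊥` in the hemisphere of `z` -/
noncomputable def QQ (v : Fin (2 * k + 1) → V3) (z : V3) (u w : Fin (2 * k + 1)) :
    Finset (Fin (2 * k + 1)) :=
  univ.filter fun x => x ≠ u ∧ x ≠ w ∧ 0 < det3 (v u) (v w) (v x) * det3 (v u) (v w) z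

lemma mem_QQ {z : V3} {u w x : Fin (2 * k + 1)} :
    x ∈ QQ v z u w ↔ x ≠ u ∧ x ≠ w ∧ 0 < det3 (v u) (v w) (v x) * det3 (v u) (v w) z := by
  simp only [QQ, mem_filter, mem_univ, true_and]

lemma QQ_symm (z : V3) (u w : Fin (2 * k + 1)) : QQ v z u w = QQ v z w u := by
  ext x
  rw [mem_QQ, mem_QQ, det3_swap12 (v u) (v w) (v x), det3_swap12 (v u) (v w) z, neg_mul_neg]
  constructor
  · rintro ⟨h1, h2, h3⟩
    exact ⟨h2, h1, h3⟩
  · rintro ⟨h1, h2, h3⟩
    exact ⟨h2, h1, h3⟩

/-- general position of the points and of the auxiliary vector `z` -/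
structure Gen (v : Fin (2 * k + 1) → V3) (z : V3) : Prop where
  gp : ∀ a b c, a ≠ b → a ≠ c → b ≠ c → det3 (v a) (v b) (v c) ≠ 0
  gz : ∀ a b, a ≠ b → det3 (v a) z (v b) ≠ 0

lemma Gen.gz' {z : V3} (G : Gen v z) {a b : Fin (2 * k + 1)} (h : a ≠ b) :
    det3 (v a) (v b) z ≠ 0 := by
  rw [det3_swap23 (v a) z (v b)]
  exact neg_ne_zero.mpr (G.gz a b h)

lemma real_gen {z : V3} (G : Gen v z) {u w : Fin (2 * k + 1)} (huw : u ≠ w) (e : ℝ) (he : e ≠ 0) :
    ∃ n, dot n (v w) = 0 ∧ (0 < dot n (v u) ↔ 0 < e) ∧ dot n (v u) ≠ 0 ∧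
      ∀ x, x ≠ u → x ≠ w → (dot n (v x) ≠ 0 ∧
        (0 < dot n (v x) ↔ 0 < det3 (v u) (v w) (v x) * det3 (v u) (v w) z)) := by
  have hz := G.gz' huw
  obtain ⟨δ, hδ, hs⟩ := exists_small
    (fun x : Fin (2 * k + 1) => det3 (v u) (v w) z * det3 (v u) (v w) (v x))
    (fun x => e * dot (crs (crs (v w) (v u)) (v w)) (v x)) (fun x => x ≠ u ∧ x ≠ w)
    (fun x hx => mul_ne_zero hz (G.gp u w x huw hx.1.symm hx.2.symm))
  have hdot : ∀ y, dot (lin (sc (det3 (v u) (v w) z) (crs (v u) (v w))) δ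
      (sc e (crs (crs (v w) (v u)) (v w)))) y
      = det3 (v u) (v w) z * det3 (v u) (v w) y + δ * (e * dot (crs (crs (v w) (v u)) (v w)) y) := by
    intro y
    rw [dot_lin, dot_sc, dot_sc, dot_crs]
  have hc : 0 < dot (crs (v w) (v u)) (crs (v w) (v u)) := by
    apply dot_self_pos _ z
    rw [dot_crs, det3_swap12]
    exact neg_ne_zero.mpr hz
  refine ⟨lin (sc (det3 (v u) (v w) z) (crs (v u) (v w))) δ
      (sc e (crs (crs (v w) (v u)) (v w))), ?_, ?_, ?_, ?_⟩
  · rw [hdot, det3_self23, dot_push_self]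
    ring
  · rw [hdot, det3_self13, dot_push, mul_zero, zero_add]
    constructor
    · intro h
      by_contra hc'
      have : e ≤ 0 := not_lt.mp hc'
      have h2 : δ * (e * dot (crs (v w) (v u)) (crs (v w) (v u))) ≤ 0 :=
        mul_nonpos_of_nonneg_of_nonpos hδ.le (mul_nonpos_of_nonpos_of_nonneg this hc.le)
      exact absurd h (not_lt.mpr h2)
    · intro h
      positivity
  · rw [hdot, det3_self13, dot_push, mul_zero, zero_add]
    exact mul_ne_zero hδ.ne' (mul_ne_zero he hc.ne')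
  · intro x hxu hxw
    rw [hdot]
    have := hs x ⟨hxu, hxw⟩
    rw [mul_comm (det3 (v u) (v w) (v x)) (det3 (v u) (v w) z)]
    exact this

lemma real_neg {z : V3} (G : Gen v z) {u w : Fin (2 * k + 1)} (huw : u ≠ w) :
    ∃ n, dot n (v w) = 0 ∧ (∀ q, q ≠ w → dot n (v q) ≠ 0) ∧
      ∀ q, (q ∈ QQ v z u w ↔ 0 < dot n (v q)) := by
  obtain ⟨n, h1, h2, h3, h4⟩ := real_gen G huw (-1) (by norm_num)
  refine ⟨n, h1, ?_, ?_⟩
  · intro q hq
    by_cases hqu : q = u
    · rw [hqu]
      exact h3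
    · exact (h4 q hqu hq).1
  · intro q
    rw [mem_QQ]
    by_cases hqu : q = u
    · subst hqu
      constructor
      · rintro ⟨h, _⟩
        exact absurd rfl h
      · intro h
        have := h2.mp h
        norm_num at this
    · by_cases hqw : q = w
      · subst hqw
        constructor
        · rintro ⟨_, h, _⟩
          exact absurd rfl h
        · intro h
          rw [h1] at h
          exact absurd h (lt_irrefl _)
      · constructor
        · rintro ⟨_, _, h⟩
          exact (h4 q hqu hqw).2.mpr h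
        · intro h
          exact ⟨hqu, hqw, (h4 q hqu hqw).2.mp h⟩

lemma real_pos {z : V3} (G : Gen v z) {u w : Fin (2 * k + 1)} (huw : u ≠ w) :
    ∃ n, dot n (v w) = 0 ∧ (∀ q, q ≠ w → dot n (v q) ≠ 0) ∧
      ∀ q, (q ∈ insert u (QQ v z u w) ↔ 0 < dot n (v q)) := by
  obtain ⟨n, h1, h2, h3, h4⟩ := real_gen G huw 1 (by norm_num)
  refine ⟨n, h1, ?_, ?_⟩
  · intro q hq
    by_cases hqu : q = u
    · rw [hqu]
      exact h3
    · exact (h4 q hqu hq).1
  · intro q
    rw [mem_insert, mem_QQ]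
    by_cases hqu : q = u
    · subst hqu
      constructor
      · intro _
        exact h2.mpr (by norm_num)
      · intro _
        exact Or.inl rfl
    · by_cases hqw : q = w
      · subst hqw
        constructor
        · rintro (h | ⟨_, h, _⟩)
          · exact absurd h hqu
          · exact absurd rfl h
        · intro h
          rw [h1] at h
          exact absurd h (lt_irrefl _)
      · constructor
        · rintro (h | ⟨_, _, h⟩)
          · exact absurd h hqu
          · exact (h4 q hqu hqw).2.mpr h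
        · intro h
          exact Or.inr ⟨hqu, hqw, (h4 q hqu hqw).2.mp h⟩

/-- a state from a normal with a given positive set of `k` elements -/
lemma halv_of {n : V3} {w : Fin (2 * k + 1)} {P : Finset (Fin (2 * k + 1))} (h1 : dot n (v w) = 0)
    (h2 : ∀ q, q ≠ w → dot n (v q) ≠ 0) (h3 : ∀ q, (q ∈ P ↔ 0 < dot n (v q))) (hP : P.card = k) :
    Halv k v n w where
  perp := h1
  ne := h2
  card := by
    have : (univ.filter fun q => 0 < dot n (v q)) = P := by
      ext q
      simp only [mem_filter, mem_univ, true_and]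
      exact (h3 q).symm
    rw [this, hP]

lemma card_of_state (s : St k v) {P : Finset (Fin (2 * k + 1))}
    (h3 : ∀ q, (q ∈ P ↔ 0 < dot s.1.1 (v q))) : P.card = k := by
  have : (univ.filter fun q => 0 < dot s.1.1 (v q)) = P := by
    ext q
    simp only [mem_filter, mem_univ, true_and]
    exact (h3 q).symm
  rw [← this]
  exact s.2.card

lemma HH_iff {h : St k v → Prop} (hA : ∀ s t, Adj s t → (h s ↔ h t)) (s : St k v)
    {P : Finset (Fin (2 * k + 1))} (hP : ∀ q, (q ∈ P ↔ 0 < dot s.1.1 (v q))) :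
    HH h s.1.2 P ↔ h s := by
  constructor
  · rintro ⟨s', _, hP', hs'⟩
    exact (hA s' s (fun q _ _ => (hP' q).symm.trans (hP q))).mp hs'
  · intro hs
    exact ⟨s, rfl, hP, hs⟩

lemma HH_move1 {z : V3} (G : Gen v z) {h : St k v → Prop} (hA : ∀ s t, Adj s t → (h s ↔ h t))
    {u w : Fin (2 * k + 1)} (huw : u ≠ w) (H : HH h u (QQ v z u w)) : HH h w (QQ v z u w) := by
  obtain ⟨s, _, hP, hs⟩ := H
  obtain ⟨n, h1, h2, h3⟩ := real_neg G huw
  refine ⟨⟨(n, w), halv_of h1 h2 h3 (card_of_state s hP)⟩, rfl, h3, ?_⟩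
  exact (hA s _ (fun q _ _ => (hP q).symm.trans (h3 q))).mp hs

lemma notMem_QQ_left (z : V3) (u w : Fin (2 * k + 1)) : u ∉ QQ v z u w := by
  rw [mem_QQ]
  rintro ⟨h, _⟩
  exact h rfl

lemma notMem_QQ_right (z : V3) (u w : Fin (2 * k + 1)) : w ∉ QQ v z u w := by
  rw [mem_QQ]
  rintro ⟨_, h, _⟩
  exact h rfl

lemma HH_move2 {z : V3} (G : Gen v z) {h : St k v → Prop} (hA : ∀ s t, Adj s t → (h s ↔ h t))
    {u w : Fin (2 * k + 1)} (huw : u ≠ w) (H : HH h u (insert w (QQ v z u w))) :
    HH h w (insert u (QQ v z u w)) := by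
  obtain ⟨s, hsu, hP, hs⟩ := H
  obtain ⟨n, h1, h2, h3⟩ := real_pos G huw
  have hc : (insert u (QQ v z u w)).card = k := by
    have := card_of_state s hP
    rw [card_insert_of_notMem (notMem_QQ_right z u w)] at this
    rw [card_insert_of_notMem (notMem_QQ_left z u w)]
    exact this
  refine ⟨⟨(n, w), halv_of h1 h2 h3 hc⟩, rfl, h3, ?_⟩
  refine (hA s _ ?_).mp hs
  intro q hq1 hq2
  have hq1' : q ≠ u := hsu ▸ hq1
  have hq2' : q ≠ w := hq2
  rw [← hP q, ← h3 q, mem_insert, mem_insert]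
  constructor
  · rintro (h | h)
    · exact absurd h hq2'
    · exact Or.inr h
  · rintro (h | h)
    · exact absurd h hq1'
    · exact Or.inr h

/-- the contribution of the vertex of `u^⊥` and `w^⊥` to the line `u` -/
noncomputable def GG (h : St k v → Prop) (z : V3) (u w : Fin (2 * k + 1)) : ZMod 2 :=
  Phi h u (QQ v z u w) + Phi h u (insert w (QQ v z u w))

lemma GG_symm {z : V3} (G : Gen v z) {h : St k v → Prop} (hA : ∀ s t, Adj s t → (h s ↔ h t))
    {u w : Fin (2 * k + 1)} (huw : u ≠ w) : GG h z u w = GG h z w u := by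
  have e1 : HH h u (QQ v z u w) ↔ HH h w (QQ v z u w) := by
    constructor
    · exact HH_move1 G hA huw
    · intro H
      rw [QQ_symm] at H ⊢
      exact HH_move1 G hA huw.symm H
  have e2 : HH h u (insert w (QQ v z u w)) ↔ HH h w (insert u (QQ v z u w)) := by
    constructor
    · exact HH_move2 G hA huw
    · intro H
      rw [QQ_symm] at H ⊢
      exact HH_move2 G hA huw.symm H
  have p1 : Phi h u (QQ v z u w) = Phi h w (QQ v z u w) := by
    classical
    unfold Phi
    exact if_congr e1 rfl rfl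
  have p2 : Phi h u (insert w (QQ v z u w)) = Phi h w (insert u (QQ v z u w)) := by
    classical
    unfold Phi
    exact if_congr e2 rfl rfl
  unfold GG
  rw [QQ_symm z w u, p1, p2]

end Vale.Agent.P040.Sph96
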