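import Vale.Agent.P040.Wind30.Labels
import Vale.Agent.P040.Sph80.Ref
import Vale.Agent.P040.Sph28.OddHalving

/-!
# The labelling lemma: auxiliary lemmas (helper96)

Telescoping on a line, small perturbations, a colouring of the classes of an equivalence relation
that is reversed by a free involution, and the algebra of the chart of a great circle.
-/

namespace Vale.Agent.P040.Sph96

open Finset Vale.Agent.P040.Sph56 Vale.Agent.P040.Wind30

/-- telescoping along the order given by a real key, modulo two -/
lemma telescope {I : Type*} [DecidableEq I] (key : I → ℝ) (Ψ : Finset I → ZMod 2) (S : Finset I)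
    (hinj : Set.InjOn key S) :
    ∑ w ∈ S, (Ψ (S.filter fun x => key x ≤ key w) + Ψ (S.filter fun x => key x < key w))
      = Ψ S + Ψ ∅ := by
  revert hinj
  refine Finset.induction_on_max_value key S ?_ ?_
  · intro _
    simp only [sum_empty]
    exact (CharTwo.add_self_eq_zero _).symm
  · intro a s ha hmax ih hinj
    have hinj' : Set.InjOn key s := hinj.mono (by
      intro x hx
      exact mem_coe.mpr (mem_insert_of_mem (mem_coe.mp hx)))
    have hlt : ∀ w ∈ s, key w < key a := by
      intro w hw
      refine lt_of_le_of_ne (hmax w hw) ?_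
      intro h
      have := hinj (mem_coe.mpr (mem_insert_of_mem hw)) (mem_coe.mpr (mem_insert_self a s)) h
      exact ha (this ▸ hw)
    rw [sum_insert ha]
    have e1 : (insert a s).filter (fun x => key x ≤ key a) = insert a s := by
      apply filter_true_of_mem
      intro x hx
      rcases mem_insert.mp hx with rfl | hx
      · exact le_refl _
      · exact hmax x hx
    have e2 : (insert a s).filter (fun x => key x < key a) = s := by
      rw [filter_insert, if_neg (lt_irrefl _)]
      exact filter_true_of_mem hlt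
    have e3 : ∑ w ∈ s, (Ψ ((insert a s).filter fun x => key x ≤ key w)
        + Ψ ((insert a s).filter fun x => key x < key w))
        = ∑ w ∈ s, (Ψ (s.filter fun x => key x ≤ key w) + Ψ (s.filter fun x => key x < key w)) := by
      apply sum_congr rfl
      intro w hw
      rw [filter_insert, if_neg (not_le.mpr (hlt w hw)), filter_insert,
        if_neg (not_lt.mpr (hlt w hw).le)]
    rw [e1, e2, e3, ih hinj']
    linear_combination (CharTwo.add_self_eq_zero (Ψ s))

/-- finitely many nonzero numbers keep their signs under a small perturbation -/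
lemma exists_small {I : Type*} [Finite I] (A B : I → ℝ) (P : I → Prop) (hA : ∀ x, P x → A x ≠ 0) :
    ∃ δ : ℝ, 0 < δ ∧ ∀ x, P x → (A x + δ * B x ≠ 0 ∧ (0 < A x + δ * B x ↔ 0 < A x)) := by
  have h1 : ∀ x, ∀ᶠ δ in nhdsWithin (0 : ℝ) (Set.Ioi 0),
      P x → (A x + δ * B x ≠ 0 ∧ (0 < A x + δ * B x ↔ 0 < A x)) := by
    intro x
    by_cases hP : P x
    · have hc : Filter.Tendsto (fun δ : ℝ => A x + δ * B x) (nhds 0) (nhds (A x)) := by
        have hcont : Continuous (fun δ : ℝ => A x + δ * B x) := by continuity
        simpa using hcont.tendsto 0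
      rcases lt_or_gt_of_ne (hA x hP) with h | h
      · have h2 := hc.eventually (Iio_mem_nhds h)
        filter_upwards [nhdsWithin_le_nhds h2] with δ hδ _
        have hδ' : A x + δ * B x < 0 := hδ
        exact ⟨hδ'.ne, ⟨fun h' => absurd h' (not_lt.mpr hδ'.le), fun h' => absurd h' (not_lt.mpr h.le)⟩⟩
      · have h2 := hc.eventually (Ioi_mem_nhds h)
        filter_upwards [nhdsWithin_le_nhds h2] with δ hδ _
        have hδ' : 0 < A x + δ * B x := hδ
        exact ⟨hδ'.ne', ⟨fun _ => h, fun _ => hδ'⟩⟩
    · exact Filter.Eventually.of_forall (fun δ h => absurd h hP)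
  have h2 := (Filter.eventually_all.mpr h1).and self_mem_nhdsWithin
  obtain ⟨δ, hδ, hpos⟩ := h2.exists
  exact ⟨δ, hpos, hδ⟩

/-- a colouring of the classes that is reversed by a free involution of the classes -/
lemma exists_colouring {S : Type*} (R : S → S → Prop) (hR : Equivalence R) (ι : S → S)
    (hι : ∀ s t, R s t → R (ι s) (ι t)) (hιι : ∀ s, R (ι (ι s)) s) (hno : ∀ s, ¬ R s (ι s)) :
    ∃ h : S → Prop, (∀ s t, R s t → (h s ↔ h t)) ∧ ∀ s, (h (ι s) ↔ ¬ h s) := by
  let st : Setoid S := ⟨R, hR⟩
  refine ⟨fun s => WellOrderingRel (Quotient.mk st s) (Quotient.mk st (ι s)), ?_, ?_⟩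
  · intro s t hst
    have e1 : Quotient.mk st s = Quotient.mk st t := Quotient.sound hst
    have e2 : Quotient.mk st (ι s) = Quotient.mk st (ι t) := Quotient.sound (hι s t hst)
    simp only [e1, e2]
  · intro s
    have e1 : Quotient.mk st (ι (ι s)) = Quotient.mk st s := Quotient.sound (hιι s)
    have hne : Quotient.mk st s ≠ Quotient.mk st (ι s) := fun h => hno s (Quotient.exact h)
    simp only [e1]
    constructor
    · intro h1 h2
      exact asymm_of WellOrderingRel h1 h2
    · intro h1
      rcases trichotomous_of WellOrderingRel (Quotient.mk st s) (Quotient.mk st (ι s)) with h | h | h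
      · exact absurd h h1
      · exact absurd h hne
      · exact h

/-- `a + δ d` -/
def lin (a : V3) (δ : ℝ) (d : V3) : V3 := (a.1 + δ * d.1, a.2.1 + δ * d.2.1, a.2.2 + δ * d.2.2)

/-- `c a` -/
def sc (c : ℝ) (a : V3) : V3 := (c * a.1, c * a.2.1, c * a.2.2)

lemma dot_lin (a d y : V3) (δ : ℝ) : dot (lin a δ d) y = dot a y + δ * dot d y := by
  unfold dot lin
  ring

lemma dot_sc (c : ℝ) (a y : V3) : dot (sc c a) y = c * dot a y := by
  unfold dot sc
  ring

lemma dot_crs (a b c : V3) : dot (crs a b) c = det3 a b c := by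
  unfold dot crs det3
  ring

lemma det3_swap12 (a b c : V3) : det3 b a c = - det3 a b c := by
  unfold det3
  ring

lemma det3_swap23 (a b c : V3) : det3 a c b = - det3 a b c := by
  unfold det3
  ring

lemma det3_swap13 (a b c : V3) : det3 c b a = - det3 a b c := by
  unfold det3
  ring

lemma det3_self13 (a b : V3) : det3 a b a = 0 := by
  unfold det3
  ring

lemma det3_self12 (a b : V3) : det3 a a b = 0 := by
  unfold det3
  ring

lemma det3_self23 (a b : V3) : det3 a b b = 0 := by
  unfold det3
  ring

lemma dot_self_pos (a y : V3) (h : dot a y ≠ 0) : 0 < dot a a := by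
  by_contra hle
  apply h
  have hle' : a.1 * a.1 + a.2.1 * a.2.1 + a.2.2 * a.2.2 ≤ 0 := by
    have := not_lt.mp hle
    unfold dot at this
    exact this
  have h1 : a.1 = 0 := mul_self_eq_zero.mp (by
    nlinarith [mul_self_nonneg a.1, mul_self_nonneg a.2.1, mul_self_nonneg a.2.2])
  have h2 : a.2.1 = 0 := mul_self_eq_zero.mp (by
    nlinarith [mul_self_nonneg a.1, mul_self_nonneg a.2.1, mul_self_nonneg a.2.2])
  have h3 : a.2.2 = 0 := mul_self_eq_zero.mp (by
    nlinarith [mul_self_nonneg a.1, mul_self_nonneg a.2.1, mul_self_nonneg a.2.2])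
  unfold dot
  rw [h1, h2, h3]
  ring

/-- the direction in `w^⊥` that moves `u` to the positive side -/
lemma dot_push_self (u w : V3) : dot (crs (crs w u) w) w = 0 := by
  unfold dot crs
  ring

lemma dot_push (u w : V3) : dot (crs (crs w u) w) u = dot (crs w u) (crs w u) := by
  unfold dot crs
  ring

/-- the chart identity -/
lemma chart_identity (u z x y : V3) :
    dot (crs (crs u z) u) x * det3 u z y - dot (crs (crs u z) u) y * det3 u z x
      = dot (crs u z) (crs u z) * det3 u x y := by
  unfold dot crs det3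
  ring

/-- three term relation -/
lemma three_term (z a b c d : V3) :
    det3 a z b * det3 c z d - det3 a z c * det3 b z d + det3 a z d * det3 b z c = 0 := by
  unfold det3
  ring

/-- the real key of `x` on the chart of the circle `u^⊥` -/
noncomputable def tk (u z x : V3) : ℝ := - dot (crs (crs u z) u) x / det3 u z x

lemma tk_lt_iff (u z x w : V3) (hx : det3 u z x ≠ 0) (hw : det3 u z w ≠ 0) :
    tk u z x < tk u z w ↔ 0 < det3 u x w * det3 u z w * det3 u z x := by
  have hc : 0 < dot (crs u z) (crs u z) := dot_self_pos _ x (by rw [dot_crs]; exact hx)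
  have hid := chart_identity u z x w
  have hp : 0 < (det3 u z x * det3 u z w) ^ 2 := by positivity
  have e : tk u z w - tk u z x
      = dot (crs u z) (crs u z) / (det3 u z x * det3 u z w) ^ 2
        * (det3 u x w * det3 u z w * det3 u z x) := by
    unfold tk
    field_simp
    linear_combination hid
  rw [← sub_pos, e]
  exact mul_pos_iff_of_pos_left (div_pos hc hp)

lemma side_iff (b E : ℝ) (hb : b ≠ 0) :
    ((0 < b ∧ 0 < E * b) ∨ (b < 0 ∧ ¬ 0 < E * b ∧ E ≠ 0)) ↔ 0 < E := by
  rcases lt_or_gt_of_ne hb with h | h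
  · constructor
    · rintro (⟨h1, _⟩ | ⟨_, h2, h3⟩)
      · exact absurd h1 (not_lt.mpr h.le)
      · rcases lt_or_gt_of_ne h3 with h4 | h4
        · exact absurd (mul_pos_of_neg_of_neg h4 h) h2
        · exact h4
    · intro hE
      exact Or.inr ⟨h, not_lt.mpr (mul_nonpos_of_nonneg_of_nonpos hE.le h.le), hE.ne'⟩
  · constructor
    · rintro (⟨_, h2⟩ | ⟨h1, _⟩)
      · exact (pos_iff_pos_of_mul_pos h2).mpr h
      · exact absurd h1 (not_lt.mpr h.le)
    · intro hE
      exact Or.inl ⟨h, mul_pos hE h⟩

end Vale.Agent.P040.Sph96
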